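import Vale.Agent.P011Z.Cl.O2b.Mat

/-!
Classification of the forms: block O2b, the matrix is a symmetric element of the algebra.
-/

open Matrix Module

noncomputable section

namespace Vale.Agent.P011Z.Cl.O2bx

open Vale.Agent.P011.D4 Vale.Agent.P011.D4.Oct Vale.Agent.P011.E6 Vale.Agent.P011.E6.Alb

open Pfx

theorem g1 {Q H U V a b c X Y m n : Matrix I6 I6 Om} {ρ τ s : Gq} (hρ : ρ * s = s * τ) {κ κ' : Om}
    (R1 : H.map ρ = κ • (Uᵀ * H * V.map s)) (R2 : c.map ρ * a = κ' • (b.map s * c))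
    (E1 : U * Q.map ρ * a = Q * X) (E2 : V * Q.map τ * b = Q * Y)
    (hc : Y.map s * c = c * Y.map s) (hn : n * V = V * m.map τ) :
    aᵀ * (Qᵀ * H * (m * Q).map s * c).map ρ * a =
      (κ * κ') • (Xᵀ * (Qᵀ * H * (n * Q).map s * c) * Y.map s) := by
  have a1 : ((m * Q).map s).map ρ = ((m * Q).map τ).map s := by rw [mp_mp, mp_mp, hρ]
  have a2 : aᵀ * (Q.map ρ)ᵀ * Uᵀ = Xᵀ * Qᵀ := by
    rw [← transpose_mul, ← transpose_mul, ← Matrix.mul_assoc, E1, transpose_mul]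
  have a3 : V.map s * ((m * Q).map τ).map s * b.map s = (n * Q).map s * Y.map s := by
    rw [← mp_mul, ← mp_mul, ← mp_mul, mp_mul τ, ← Matrix.mul_assoc, ← hn, Matrix.mul_assoc n,
      Matrix.mul_assoc n, E2, Matrix.mul_assoc]
  calc _ = aᵀ * (Q.map ρ)ᵀ * H.map ρ * ((m * Q).map s).map ρ * (c.map ρ * a) := by
        simp only [mp_mul, mp_tr, Matrix.mul_assoc]
    _ = (κ * κ') • (aᵀ * (Q.map ρ)ᵀ * Uᵀ * H * (V.map s * ((m * Q).map τ).map s * b.map s) * c) := by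
        rw [R1, R2, a1, mul_comm κ]
        simp only [Matrix.mul_smul, Matrix.smul_mul, smul_smul, Matrix.mul_assoc]
    _ = _ := by
        rw [a2, a3]
        simp only [Matrix.mul_assoc, hc]

theorem g2 {Q H U a c X m : Matrix I6 I6 Om} {s : Gq} {κ κ' : Om}
    (R1 : H.map s = κ • (Hᵀ * U)) (R2 : c.map s * c = κ' • a)
    (E : U * Q.map ⇑(s * s) * a = Q * X) (hm : U * m.map ⇑(s * s) = m * U) :
    cᵀ * (Qᵀ * H * (m * Q).map s * c).map s * c =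
      (κ * κ') • ((Qᵀ * (mᵀ * H * Q.map s) * c)ᵀ * X) := by
  have a3 : U * ((m * Q).map s).map s * a = m * Q * X := by
    rw [mp_mp, mp_mul, ← Matrix.mul_assoc, hm, Matrix.mul_assoc m, Matrix.mul_assoc m, E,
      Matrix.mul_assoc]
  calc _ = cᵀ * (Q.map s)ᵀ * H.map s * ((m * Q).map s).map s * (c.map s * c) := by
        simp only [mp_mul, mp_tr, Matrix.mul_assoc]
    _ = (κ * κ') • (cᵀ * (Q.map s)ᵀ * Hᵀ * (U * ((m * Q).map s).map s * a)) := by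
        rw [R1, R2, mul_comm κ]
        simp only [Matrix.mul_smul, Matrix.smul_mul, smul_smul, Matrix.mul_assoc]
    _ = _ := by
        rw [a3]
        simp only [transpose_mul, transpose_transpose, Matrix.mul_assoc]

theorem canl {A X Y : Matrix I6 I6 Om} (hA : A.det ≠ 0) (h : A * X = A * Y) : X = Y :=
  ((isUnit_iff_isUnit_det A).2 (Ne.isUnit hA)).mul_left_cancel h

theorem canr {A X Y : Matrix I6 I6 Om} (hA : A.det ≠ 0) (h : X * A = Y * A) : X = Y :=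
  ((isUnit_iff_isUnit_det A).2 (Ne.isUnit hA)).mul_right_cancel h

theorem mp_inj (σ : Gq) {X Y : Matrix I6 I6 Om} (h : X.map σ = Y.map σ) : X = Y :=
  map_injective σ.injective h

theorem bk_rel {A A' C : Matrix (Fin 2) (Fin 2) Om} {σ : Gq} {c : Om} (h : A * A'.map σ = c • C) :
    (bk fun _ => A'ᵀ).map σ * bk (fun _ => Aᵀ) = c • bk fun _ => Cᵀ := by
  rw [bk_map, bk_bk, bk_smul]
  congr 1
  funext i
  rw [mp_tr, ← transpose_mul, h, transpose_smul]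

variable {D : ED} {B : Gq → Matrix (Fin 2) (Fin 2) Om} {P : Gq → Matrix I6 I6 Om} {μ : Gq → Om}
  {χ : Gq → Fin 3} {s : Gq} {z : Fin 3 → J}

theorem conj_mem (h : D.OK) (hs : s ∈ D.G) (hsK : s ∉ D.K) {τ : Gq} (hτ : τ ∈ D.K) :
    s * τ * s⁻¹ ∈ D.K :=
  (h.ix _ (mul_mem hs (h.le hτ)) _ (inv_mem hs)).2
    (iff_of_false (fun h1 => hsK (((h.ix _ hs _ (h.le hτ)).1 h1).2 hτ))
      fun h1 => hsK (inv_mem_iff.1 h1))

theorem sq_mem (h : D.OK) (hs : s ∈ D.G) : s * s ∈ D.K := (h.ix _ hs _ hs).2 Iff.rfl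

theorem chi_conj (hχ : Chi D.G χ) (hs : s ∈ D.G) (h0 : χ s = 0) {ρ τ : Gq} (hρ : ρ ∈ D.G)
    (hτ : τ ∈ D.G) (h : ρ * s = s * τ) : χ ρ = χ τ := by
  have h1 := hχ.mul ρ hρ s hs
  rw [h, hχ.mul s hs τ hτ, h0, zero_add, add_zero] at h1
  exact h1.symm

theorem qz_f (h6 : D.S6 B P μ) {σ : Gq} (hσ : σ ∈ D.G) (z : Fin 3 → J) :
    P σ * (qz z).map σ * bk (fun _ => (B σ)ᵀ) = qz fun i => D.f σ (z i) := by
  rw [← qz_gl6 σ (B σ) (P σ) (μ σ)]
  congr 1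
  funext i
  rw [h6.eq σ hσ]

theorem eqv_mat (h6 : D.S6 B P μ) {σ : Gq} (hσ : σ ∈ D.G) {c : Fin 3} {t : Fin 3 → Om}
    (ht : ∀ i, D.f σ (z i) = t i • z (i + c)) :
    P σ * (qz z).map σ * bk (fun _ => (B σ)ᵀ) = qz z * pm c t := by
  rw [qz_f h6 hσ, ← qz_pm]
  congr 1
  funext i
  rw [ht]

theorem t_ne (h : D.OK) (hz : (qz z).det ≠ 0) {σ : Gq} (hσ : σ ∈ D.G) {c : Fin 3}
    {t : Fin 3 → Om} (ht : ∀ i, D.f σ (z i) = t i • z (i + c)) (i : Fin 3) : t i ≠ 0 := fun h0 =>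
  (h.sim σ hσ).toSemi.ne (qz_ne hz i) (by rw [ht, h0, zero_smul])

theorem pm_ne {c : Fin 3} {t : Fin 3 → Om} (ht : ∀ i, t i ≠ 0) : (pm c t).det ≠ 0 := by
  rw [det_pm]
  exact pow_ne_zero _ (Finset.prod_ne_zero_iff.2 fun i _ => ht i)

theorem ad_one (h6 : D.S6 B P μ) (hs : s ∈ D.G) (hz : ∀ i, om6 (z i) = 0) (i : Fin 3) :
    ad ((qz z)ᵀ * (j6 * P s) * (1 * qz z).map s * bk fun _ => (B s)ᵀ) i =
      tf (z i) (D.f s (z i)) := by
  rw [← ad_tf hz (fun i => D.f s (z i)), ← qz_f h6 hs, Matrix.one_mul]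
  simp only [Matrix.mul_assoc]

theorem hs_ne (h6 : D.S6 B P μ) (hs : s ∈ D.G) : (j6 * P s).det ≠ 0 := by
  rw [det_mul, j6_props.2.2.1, one_mul]
  exact (dets (h6.ne s hs) (h6.det s hs)).2

theorem bs_ne (h6 : D.S6 B P μ) (hs : s ∈ D.G) : (bk fun _ => (B s)ᵀ).det ≠ 0 := by
  rw [det_bk1, det_transpose]
  exact pow_ne_zero _ (dets (h6.ne s hs) (h6.det s hs)).1

theorem part_a (h : D.OK) (h6 : D.S6 B P μ) (hχ : Chi D.G χ) (hs : s ∈ D.G)
    (hsK : s ∉ D.K) (h0 : χ s = 0) (hz : Z6 D χ z)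
    (he : ∀ i, tf (z i) (D.f s (z i)) ≠ 0) {l : Fin 3 → Om}
    (hl : ∀ σ ∈ D.G, ∀ i, σ (l i) = l (i + χ σ)) {m : Matrix I6 I6 Om}
    (hm : Gm s (B s) (P s) z (fun i => l i * tf (z i) (D.f s (z i))) m) {τ : Gq} (hτ : τ ∈ D.K) :
    P τ * m.map τ = m * P τ := by
  obtain ⟨ρ, hρ, hρs⟩ : ∃ ρ ∈ D.K, ρ * s = s * τ :=
    ⟨_, conj_mem h hs hsK hτ, inv_mul_cancel_right _ _⟩
  have hρG := h.le hρ
  have hτG := h.le hτ
  have hc := chi_conj hχ hs h0 hρG hτG hρs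
  have ud := s6_ud h h6
  obtain ⟨c1, h1⟩ := ud.cod ρ hρG s hs hsK
  obtain ⟨c2, h2⟩ := ud.coc s hs τ hτ
  have h3 := ud.ne s hs
  have h4 := ud.ne τ hτG
  have p1 : pt D.K P s = j6 * P s := if_neg hsK
  have p2 : pt D.K P ρ = P ρ := if_pos hρ
  have p3 : pt D.K P τ = P τ := if_pos hτ
  rw [hρs, p1, p2] at h1
  rw [p1, p3] at h2
  rw [p1] at h3
  rw [p3] at h4
  have hc2 : c2 ≠ 0 := by
    rintro rfl
    have h5 := congrArg det h2
    rw [zero_smul, det_zero, det_mul, mp_det] at h5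
    exact mul_ne_zero h3 ((map_ne_zero s).2 h4) h5
  have R1 : (j6 * P s).map ρ = (c1 * c2⁻¹) • ((P ρ)ᵀ * (j6 * P s) * (P τ).map s) := by
    rw [h1, Matrix.mul_assoc (P ρ)ᵀ, h2, Matrix.mul_smul, smul_smul, mul_assoc,
      inv_mul_cancel₀ hc2, mul_one]
  obtain ⟨c3, -, h5⟩ := s6_B h h6 hρG hs
  obtain ⟨c4, hc4, h6'⟩ := s6_B h h6 hs hτG
  have R2 : (bk fun _ => (B s)ᵀ).map ρ * bk (fun _ => (B ρ)ᵀ) =
      (c3 * c4⁻¹) • ((bk fun _ => (B τ)ᵀ).map s * bk fun _ => (B s)ᵀ) := by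
    rw [bk_rel h5, bk_rel h6', hρs, smul_smul, mul_assoc, inv_mul_cancel₀ hc4, mul_one]
  choose t ht using hz.eqv τ hτ
  choose u hu using hz.eqv ρ hρ
  rw [hc] at hu
  have E1 := eqv_mat h6 hρG hu
  have E2 := eqv_mat h6 hτG ht
  have hcm : (pm (χ τ) t).map s * bk (fun _ => (B s)ᵀ) =
      bk (fun _ => (B s)ᵀ) * (pm (χ τ) t).map s := by rw [pm_map, pm_bk]
  have hn : P τ * m.map τ * (P τ)⁻¹ * P τ = P τ * m.map τ :=
    nonsing_inv_mul_cancel_right _ _ (Ne.isUnit h4)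
  have G1 := g1 (m := 1) (n := 1) hρs R1 R2 E1 E2 hcm (by rw [mp_id, Matrix.one_mul, Matrix.mul_one])
  have G2 := g1 hρs R1 R2 E1 E2 hcm hn
  generalize c1 * c2⁻¹ * (c3 * c4⁻¹) = κ at G1 G2
  rw [pm_map] at G1 G2
  have a1 : ∀ i, (B ρ).det * ρ (tf (z i) (D.f s (z i))) =
      κ * (u i * s (t i)) * tf (z (i + χ τ)) (D.f s (z (i + χ τ))) := fun i => by
    have h7 := congrArg (fun M => ad M i) G1
    simp only [ad_congr, ad_pm, ad_one h6 hs hz.om] at h7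
    exact h7
  have hκ : κ ≠ 0 := by
    rintro rfl
    refine mul_ne_zero (dets (h6.ne ρ hρG) (h6.det ρ hρG)).1 ((map_ne_zero ρ).2 (he 0)) ?_
    rw [a1, zero_mul, zero_mul]
  have G3 : κ • ((pm (χ τ) u)ᵀ * ((qz z)ᵀ * (j6 * P s) * (m * qz z).map s * bk fun _ => (B s)ᵀ) *
      pm (χ τ) fun i => s (t i)) = κ • ((pm (χ τ) u)ᵀ * ((qz z)ᵀ * (j6 * P s) *
        (P τ * m.map τ * (P τ)⁻¹ * qz z).map s * bk fun _ => (B s)ᵀ) * pm (χ τ) fun i => s (t i)) := by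
    rw [← G2, hm, bk_congr, pm_bk_pm, bk_smul]
    congr 1
    funext i
    rw [smul_smul, smul_smul, map_mul, hl ρ hρG, hc]
    congr 1
    linear_combination -l (i + χ τ) * a1 i
  have G4 := canl (by rw [det_transpose]; exact pm_ne (t_ne h hz.det hρG hu))
    (canr (pm_ne fun i => (map_ne_zero s).2 (t_ne h hz.det hτG ht i))
      (smul_right_injective _ hκ G3))
  have G5 := canl (by rw [det_mul, det_transpose]; exact mul_ne_zero hz.det h3)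
    (canr (bs_ne h6 hs) G4)
  rw [← hn, ← canr hz.det (mp_inj s G5)]

theorem part_b (h : D.OK) (h6 : D.S6 B P μ) (hχ : Chi D.G χ) (hs : s ∈ D.G)
    (hsK : s ∉ D.K) (h0 : χ s = 0) (hz : Z6 D χ z)
    (he : ∀ i, tf (z i) (D.f s (z i)) ≠ 0) {l : Fin 3 → Om}
    (hl : ∀ σ ∈ D.G, ∀ i, σ (l i) = l (i + χ σ)) {m : Matrix I6 I6 Om}
    (hm : Gm s (B s) (P s) z (fun i => l i * tf (z i) (D.f s (z i))) m) :
    j6 * P s * m.map s = mᵀ * (j6 * P s) := by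
  have hρ := sq_mem h hs
  have hρG := h.le hρ
  have hc : χ (s * s) = 0 := by rw [hχ.mul s hs s hs, h0, add_zero]
  obtain ⟨c1, R1⟩ := (s6_ud h h6).cod s hs s hs hsK
  have p1 : pt D.K P s = j6 * P s := if_neg hsK
  have p2 : pt D.K P (s * s) = P (s * s) := if_pos hρ
  rw [p1, p2] at R1
  obtain ⟨c2, -, h2⟩ := s6_B h h6 hs hs
  have R2 := bk_rel h2
  choose t ht using hz.eqv _ hρ
  rw [hc] at ht
  have E := eqv_mat h6 hρG ht
  have G1 := g2 (m := 1) R1 R2 E (by rw [mp_id, Matrix.one_mul, Matrix.mul_one])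
  have G2 := g2 R1 R2 E (part_a h h6 hχ hs hsK h0 hz he hl hm hρ)
  generalize c1 * c2 = κ at G1 G2
  have e1 : (qz z)ᵀ * (1ᵀ * (j6 * P s) * (qz z).map s) =
      (qz z)ᵀ * (j6 * P s) * (1 * qz z).map s := by
    rw [transpose_one, Matrix.one_mul, Matrix.one_mul, ← Matrix.mul_assoc]
  rw [e1] at G1
  have a1 : ∀ i, (B s).det * s (tf (z i) (D.f s (z i))) =
      -(κ * t i * tf (z i) (D.f s (z i))) := fun i => by
    have h7 := congrArg (fun M => ad M i) G1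
    simp only [ad_congr, ad_pm0, ad_one h6 hs hz.om] at h7
    exact h7
  have hκ : κ ≠ 0 := by
    rintro rfl
    refine mul_ne_zero (dets (h6.ne s hs) (h6.det s hs)).1 ((map_ne_zero s).2 (he 0)) ?_
    rw [a1, zero_mul, zero_mul, neg_zero]
  have G3 : κ • (((qz z)ᵀ * (j6 * P s) * (m * qz z).map s * bk fun _ => (B s)ᵀ)ᵀ * pm 0 t) =
      κ • (((qz z)ᵀ * (mᵀ * (j6 * P s) * (qz z).map s) * bk fun _ => (B s)ᵀ)ᵀ * pm 0 t) := by
    rw [← G2, hm, bk_congr, bk_tr, bk_pm0, bk_smul]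
    congr 1
    funext i
    rw [transpose_smul, j2_tr, smul_neg, ← neg_smul, smul_smul, smul_smul, map_mul, hl s hs, h0,
      add_zero]
    congr 1
    linear_combination -l i * a1 i
  have G4 := transpose_injective (canr (pm_ne (t_ne h hz.det hρG ht))
    (smul_right_injective _ hκ G3))
  have G5 := canr (bs_ne h6 hs) G4
  rw [Matrix.mul_assoc, mp_mul, ← Matrix.mul_assoc (j6 * P s)] at G5
  exact canr (by rw [mp_det]; exact (map_ne_zero s).2 hz.det)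
    (canl (by rw [det_transpose]; exact hz.det) G5)

end Vale.Agent.P011Z.Cl.O2bx

end
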