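import Vale.Agent.P011Z.Cl.O2b.AB

/-!
Classification of the forms: block O2b, the determinant is a norm.
-/

open Matrix Module

noncomputable section

namespace Vale.Agent.P011Z.Cl.O2bx

open Vale.Agent.P011.D4 Vale.Agent.P011.D4.Oct Vale.Agent.P011.E6 Vale.Agent.P011.E6.Alb

open Pfx

variable {D : ED} {B : Gq → Matrix (Fin 2) (Fin 2) Om} {P : Gq → Matrix I6 I6 Om} {μ : Gq → Om}
  {χ : Gq → Fin 3} {s : Gq} {z : Fin 3 → J}

theorem prod_shift (x : Fin 3 → Om) (c : Fin 3) : ∏ i, x (i + c) = ∏ i, x i :=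
  Equiv.prod_comp (Equiv.addRight c) x

theorem cub_f (h6 : D.S6 B P μ) {σ : Gq} (hσ : σ ∈ D.G) (x : J) :
    cub (D.f σ x) = μ σ * (B σ).det * σ (cub x) := by
  rw [h6.eq σ hσ, (gl6_props (h6.ne σ hσ) (h6.det σ hσ)).2]

theorem lam_ne (h6 : D.S6 B P μ) {σ : Gq} (hσ : σ ∈ D.G) : μ σ * (B σ).det ≠ 0 :=
  mul_ne_zero (h6.ne σ hσ) (dets (h6.ne σ hσ) (h6.det σ hσ)).1

theorem lam_coc (h6 : D.S6 B P μ) {σ τ : Gq} (hσ : σ ∈ D.G) (hτ : τ ∈ D.G) {c : Om}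
    (hc : ∀ x, D.f σ (D.f τ x) = c • D.f (σ * τ) x) :
    μ σ * (B σ).det * σ (μ τ * (B τ).det) = c ^ 3 * (μ (σ * τ) * (B (σ * τ)).det) := by
  have h1 := congrArg cub (hc j1)
  rwa [cub_smul, cub_f h6 hσ, cub_f h6 hτ, cub_f h6 (mul_mem hσ hτ), Cubx.cub_j1, map_one, map_one,
    mul_one, mul_one] at h1

theorem lam_cod (h : D.OK) (h6 : D.S6 B P μ) {σ τ : Gq} (hσ : σ ∈ D.G) (hτ : τ ∈ D.G) {c : Om}
    (hc : ∀ x, dag σ (D.f σ) (D.f τ x) = c • D.f (σ * τ) x) :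
    σ (μ τ * (B τ).det) = c ^ 3 * (μ (σ * τ) * (B (σ * τ)).det) * (μ σ * (B σ).det) := by
  have h1 := congrArg cub (hc j1)
  rw [cub_smul, cub_dag (h.sim σ hσ).toSemi (lam_ne h6 hσ) (cub_f h6 hσ), cub_f h6 hτ,
    cub_f h6 (mul_mem hσ hτ), Cubx.cub_j1, map_one, map_one, mul_one, mul_one] at h1
  rw [← h1, mul_right_comm, inv_mul_cancel₀ (lam_ne h6 hσ), one_mul]

theorem det_q (h6 : D.S6 B P μ) {σ : Gq} (hσ : σ ∈ D.G) {c : Fin 3} {t : Fin 3 → Om}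
    (ht : ∀ i, D.f σ (z i) = t i • z (i + c)) :
    σ (qz z).det * (μ σ * (B σ).det) ^ 2 = (qz z).det * (∏ i, t i) ^ 2 := by
  have h1 := congrArg det (eqv_mat h6 hσ ht)
  rw [det_mul, det_mul, det_mul, mp_det, det_bk1, det_transpose, det_pm] at h1
  linear_combination h1 + σ (qz z).det * (B σ).det ^ 2 * h6.det σ hσ

/-- The number which normalizes the cocycle. -/
theorem exists_y (h : D.OK) (h6 : D.S6 B P μ) (hχ : Chi D.G χ) (hz : (qz z).det ≠ 0)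
    {t : Gq → Fin 3 → Om} (ht : ∀ τ ∈ D.K, ∀ i, D.f τ (z i) = t τ i • z (i + χ τ)) :
    ∃ y : Om, y ≠ 0 ∧ ∀ τ ∈ D.K, (∏ i, t τ i) * τ y = μ τ * (B τ).det * y := by
  have hT : ∀ τ ∈ D.K, ∏ i, t τ i ≠ 0 := fun τ hτ =>
    Finset.prod_ne_zero_iff.2 fun i _ => t_ne h hz (h.le hτ) (ht τ hτ) i
  refine (h90 h.opn (fun τ => (∏ i, t τ i) / (μ τ * (B τ).det))
    (fun τ hτ => div_ne_zero (hT τ hτ) (lam_ne h6 (h.le hτ))) (fun σ hσ τ hτ => ?_) ?_).imp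
      fun y hy => ⟨hy.1, fun τ hτ => ?_⟩
  rotate_right
  · have h1 := hy.2 τ hτ
    rw [div_mul_eq_mul_div, div_eq_iff (lam_ne h6 (h.le hτ))] at h1
    rw [h1, mul_comm]
  · obtain ⟨c, hc⟩ := h.coc σ (h.le hσ) τ hτ
    have h1 := lam_coc h6 (h.le hσ) (h.le hτ) hc
    have h2 : ∀ i, σ (t τ i) * t σ (i + χ τ) = c * t (σ * τ) i := fun i => by
      have h3 := hc (z i)
      rw [ht τ hτ, (h.sim σ (h.le hσ)).smul, ht σ hσ, ht _ (mul_mem hσ hτ),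
        hχ.mul σ (h.le hσ) τ (h.le hτ), smul_smul, smul_smul, add_assoc, add_comm (χ τ)] at h3
      exact smul_left_injective Om (qz_ne hz _) h3
    have h3 : σ (∏ i, t τ i) * ∏ i, t σ i = c ^ 3 * ∏ i, t (σ * τ) i := by
      rw [← prod_shift (t σ) (χ τ), map_prod, ← Finset.prod_mul_distrib,
        Finset.prod_congr rfl fun i _ => h2 i, Finset.prod_mul_distrib, Finset.prod_const,
        Finset.card_univ, Fintype.card_fin]
    rw [map_div₀, div_mul_div_comm, h1, mul_comm (∏ i, t σ i), h3,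
      mul_div_mul_left _ _ (pow_ne_zero 3
        (Datx.ne_zero (h.sim σ (h.le hσ)).toSemi (h.sim τ (h.le hτ)).toSemi hc))]
  · have := fd_J
    obtain ⟨H1, a1, a2⟩ := Smo.unif (fun σ hσ => (h.sim σ (h.le hσ)).toSemi) h.smo z
    obtain ⟨H2, b1, b2⟩ := h.smo j1
    obtain ⟨H3, c1, c2⟩ := hχ.smo
    refine ⟨H1 ⊓ H2 ⊓ H3, (a1.inf b1).inf c1, fun σ hσ hK => ?_⟩
    have h1 : ∀ i, t σ i = 1 := fun i => by
      have h2 := ht σ hK i
      rw [a2 σ hσ.1.1 hK, c2 σ hσ.2 (h.le hK), add_zero] at h2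
      exact smul_left_injective Om (qz_ne hz i) (h2.symm.trans (one_smul Om _).symm)
    have h2 := cub_f h6 (h.le hK) j1
    rw [b2 σ hσ.1.2 hK, Cubx.cub_j1, map_one, mul_one] at h2
    simp only [h1, ← h2, Finset.prod_const_one, div_one]

theorem eta_K (h : D.OK) (h6 : D.S6 B P μ) (hs : s ∈ D.G) (hsK : s ∉ D.K) {ρ τ : Gq}
    (hρ : ρ ∈ D.K) (hτ : τ ∈ D.K) (hρs : ρ * s = s * τ) {c : Fin 3} {t u : Fin 3 → Om}
    (ht : ∀ i, D.f τ (z i) = t i • z (i + c)) (hu : ∀ i, D.f ρ (z i) = u i • z (i + c)) :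
    ρ ((∏ i, tf (z i) (D.f s (z i))) / (μ s * (B s).det)) *
      (μ ρ * (B ρ).det * s (μ τ * (B τ).det)) =
      (∏ i, u i) * s (∏ i, t i) * ((∏ i, tf (z i) (D.f s (z i))) / (μ s * (B s).det)) := by
  have hρG := h.le hρ
  have hτG := h.le hτ
  obtain ⟨c1, h1⟩ := h.cod ρ hρG s hs hsK
  obtain ⟨c2, h2⟩ := h.coc s hs τ hτ
  have h3 := lam_cod h h6 hρG hs h1
  have h4 := lam_coc h6 hs hτG h2
  rw [hρs] at h1 h3
  have h5 : ∀ i, c2 * ρ (tf (z i) (D.f s (z i))) =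
      c1 * (u i * s (t i) * tf (z (i + c)) (D.f s (z (i + c)))) := fun i => by
    rw [← dag_tf (h.sim ρ hρG).toSemi, h1, hu, tf_smul_left, tf_smul_right, mul_left_comm c2,
      mul_left_comm c2, ← tf_smul_right c2, ← h2, ht, (h.sim s hs).smul, tf_smul_right]
    ring
  have h6' : c2 ^ 3 * ρ (∏ i, tf (z i) (D.f s (z i))) =
      c1 ^ 3 * ((∏ i, u i) * s (∏ i, t i) * ∏ i, tf (z i) (D.f s (z i))) := by
    have h7 := Finset.prod_congr rfl fun i (_ : i ∈ Finset.univ) => h5 i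
    simp only [Finset.prod_mul_distrib, Finset.prod_const, Finset.card_univ, Fintype.card_fin] at h7
    rw [prod_shift (fun i => tf (z i) (D.f s (z i))) c] at h7
    rw [map_prod, map_prod, h7]
  have n1 := lam_ne h6 hs
  have n2 := (map_ne_zero ρ).2 n1
  rw [map_div₀, div_mul_eq_mul_div, ← mul_div_assoc, div_eq_div_iff n2 n1, h3]
  linear_combination ρ (∏ i, tf (z i) (D.f s (z i))) * (μ ρ * (B ρ).det) * h4 +
    μ (s * τ) * (B (s * τ)).det * (μ ρ * (B ρ).det) * h6'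

theorem eta_s (h : D.OK) (h6 : D.S6 B P μ) (hs : s ∈ D.G) (hsK : s ∉ D.K) {t : Fin 3 → Om}
    (ht : ∀ i, D.f (s * s) (z i) = t i • z i) :
    s ((∏ i, tf (z i) (D.f s (z i))) / (μ s * (B s).det)) * (μ (s * s) * (B (s * s)).det) =
      (∏ i, t i) * ((∏ i, tf (z i) (D.f s (z i))) / (μ s * (B s).det)) := by
  obtain ⟨c1, h1⟩ := h.cod s hs s hs hsK
  have h3 := lam_cod h h6 hs hs h1
  have h5 : ∀ i, s (tf (z i) (D.f s (z i))) = c1 * (t i * tf (z i) (D.f s (z i))) := fun i => by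
    rw [← dag_tf (h.sim s hs).toSemi, h1, ht, tf_smul_right, tf_smul_right, tf_comm]
  have h6' : s (∏ i, tf (z i) (D.f s (z i))) =
      c1 ^ 3 * ((∏ i, t i) * ∏ i, tf (z i) (D.f s (z i))) := by
    simp only [map_prod, h5, Finset.prod_mul_distrib, Finset.prod_const, Finset.card_univ,
      Fintype.card_fin]
  have n1 := lam_ne h6 hs
  have n2 := (map_ne_zero s).2 n1
  rw [map_div₀, div_mul_eq_mul_div, ← mul_div_assoc, div_eq_div_iff n2 n1, h3, h6']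
  ring

theorem part_c (h : D.OK) (h6 : D.S6 B P μ) (hχ : Chi D.G χ) (hs : s ∈ D.G)
    (hsK : s ∉ D.K) (h0 : χ s = 0) (hz : Z6 D χ z)
    (he : ∀ i, tf (z i) (D.f s (z i)) ≠ 0) {l : Fin 3 → Om} (hl0 : ∀ i, l i ≠ 0)
    (hl : ∀ σ ∈ D.G, ∀ i, σ (l i) = l (i + χ σ)) {m : Matrix I6 I6 Om}
    (hm : Gm s (B s) (P s) z (fun i => l i * tf (z i) (D.f s (z i))) m) :
    ∃ w : Om, w ≠ 0 ∧ Fx D.K w ∧ m.det = w * s w := by
  choose! t ht using hz.eqv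
  obtain ⟨y, hy0, hy⟩ := exists_y h h6 hχ hz.det ht
  have hL : ∀ σ ∈ D.G, σ (∏ i, l i) = ∏ i, l i := fun σ hσ => by
    rw [map_prod, Finset.prod_congr rfl fun i _ => hl σ hσ i, prod_shift]
  have hL0 : ∏ i, l i ≠ 0 := Finset.prod_ne_zero_iff.2 fun i _ => hl0 i
  have hT : ∀ τ ∈ D.K, ∏ i, t τ i ≠ 0 := fun τ hτ =>
    Finset.prod_ne_zero_iff.2 fun i _ => t_ne h hz.det (h.le hτ) (ht τ hτ) i
  have hd := congrArg det hm
  rw [det_mul, det_mul, det_mul, det_mul, mp_det, det_mul, map_mul, det_bk1, det_bk2, det_transpose,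
    det_transpose, j6_props.2.2.1, one_mul, Finset.prod_mul_distrib] at hd
  have hx0 : (∏ i, tf (z i) (D.f s (z i))) / (μ s * (B s).det) ≠ 0 :=
    div_ne_zero (Finset.prod_ne_zero_iff.2 fun i _ => he i) (lam_ne h6 hs)
  have hd' : s m.det * ((qz z).det * s (qz z).det) =
      ((∏ i, l i) * ((∏ i, tf (z i) (D.f s (z i))) / (μ s * (B s).det))) ^ 2 := by
    rw [← mul_div_assoc, div_pow, eq_div_iff (pow_ne_zero 2 (lam_ne h6 hs))]
    linear_combination hd + s m.det * (qz z).det * s (qz z).det * (B s).det ^ 2 * h6.det s hs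
  have hss := sq_mem h hs
  have e1 := eta_s h h6 hs hsK (z := z) (t := t (s * s)) fun i => by
    rw [ht _ hss, hχ.mul s hs s hs, h0, add_zero, add_zero]
  have e2 : ∀ ρ ∈ D.K, ∀ τ ∈ D.K, ρ * s = s * τ → _ := fun ρ hρ τ hτ hρs =>
    eta_K h h6 hs hsK hρ hτ hρs (ht τ hτ) fun i => by
      rw [ht ρ hρ, chi_conj hχ hs h0 (h.le hρ) (h.le hτ) hρs]
  generalize (∏ i, tf (z i) (D.f s (z i))) / (μ s * (B s).det) = ξ at hx0 hd' e1 e2
  generalize ∏ i, l i = L at hL hL0 hd'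
  have z1 : s (ξ * y * s y) = ξ * y * s y := by
    have h1 := hy _ hss
    refine mul_right_cancel₀ (mul_ne_zero (lam_ne h6 (h.le hss)) (hT _ hss)) ?_
    rw [map_mul, map_mul, ← AlgEquiv.mul_apply]
    linear_combination s y * (s * s) y * (∏ i, t (s * s) i) * e1 +
      s y * ξ * (∏ i, t (s * s) i) * h1
  have z2 : ∀ ρ ∈ D.K, ρ (ξ * y * s y) = ξ * y * s y := fun ρ hρ => by
    obtain ⟨τ, hτ, hρs⟩ : ∃ τ ∈ D.K, ρ * s = s * τ := by
      refine ⟨s⁻¹ * ρ * s⁻¹⁻¹, conj_mem h (inv_mem hs) (fun h1 => hsK (inv_mem_iff.1 h1)) hρ, ?_⟩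
      rw [inv_inv, ← mul_assoc, mul_inv_cancel_left]
    have h1 := hy ρ hρ
    have h2 := congrArg s (hy τ hτ)
    have h3 := e2 ρ hρ τ hτ hρs
    rw [map_mul, map_mul s _ y, ← AlgEquiv.mul_apply, ← hρs, AlgEquiv.mul_apply] at h2
    refine mul_right_cancel₀ (mul_ne_zero (lam_ne h6 (h.le hρ))
      ((map_ne_zero s).2 (lam_ne h6 (h.le hτ)))) ?_
    rw [map_mul, map_mul]
    linear_combination ρ y * ρ (s y) * h3 + ξ * s (∏ i, t τ i) * ρ (s y) * h1 +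
      ξ * (μ ρ * (B ρ).det * y) * h2
  have z3 : ∀ ρ ∈ D.K, ρ ((qz z).det * y ^ 2) = (qz z).det * y ^ 2 := fun ρ hρ => by
    have h1 := hy ρ hρ
    have h2 := det_q h6 (h.le hρ) (ht ρ hρ)
    refine mul_right_cancel₀ (pow_ne_zero 2 (lam_ne h6 (h.le hρ))) ?_
    rw [map_mul, map_pow]
    linear_combination ρ y ^ 2 * h2 +
      (qz z).det * ((∏ i, t ρ i) * ρ y + μ ρ * (B ρ).det * y) * h1
  have q0 : (qz z).det * y ^ 2 ≠ 0 := mul_ne_zero hz.det (pow_ne_zero 2 hy0)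
  have hw : Fx D.K (L * (ξ * y * s y) / ((qz z).det * y ^ 2)) := fun ρ hρ => by
    rw [map_div₀, map_mul, hL ρ (h.le hρ), z2 ρ hρ, z3 ρ hρ]
  refine ⟨_, div_ne_zero (mul_ne_zero hL0 (mul_ne_zero (mul_ne_zero hx0 hy0)
    ((map_ne_zero s).2 hy0))) q0, hw, s.injective ?_⟩
  rw [map_mul, ← AlgEquiv.mul_apply, hw _ hss, map_div₀, map_mul, hL s hs, z1, div_mul_div_comm,
    eq_div_iff (mul_ne_zero ((map_ne_zero s).2 q0) q0), map_mul, map_pow]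
  linear_combination y ^ 2 * s y ^ 2 * hd'

end Vale.Agent.P011Z.Cl.O2bx

end
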