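import Vale.Agent.P011Z.Cl.O2a

/-!
Classification of the forms: block O2b, block matrices.
-/

open Matrix Module

noncomputable section

namespace Vale.Agent.P011Z.Cl.O2bx

open Vale.Agent.P011.D4 Vale.Agent.P011.D4.Oct Vale.Agent.P011.E6 Vale.Agent.P011.E6.Alb

open Pfx

/-- A weighted cyclic permutation of the blocks. -/
def pm (c : Fin 3) (t : Fin 3 → Om) : Matrix I6 I6 Om :=
  fun q r => if q = (r.1 + c, r.2) then t r.1 else 0

/-- The alternating part of a diagonal block. -/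
def ad (M : Matrix I6 I6 Om) (i : Fin 3) : Om := M (i, 1) (i, 0) - M (i, 0) (i, 1)

variable (M : Matrix I6 I6 Om) (c : Fin 3) (t t' e : Fin 3 → Om)
  (C C' : Fin 3 → Matrix (Fin 2) (Fin 2) Om) (A : Matrix (Fin 2) (Fin 2) Om) (σ : Gq)

theorem mul_pm (q r : I6) : (M * pm c t) q r = M q (r.1 + c, r.2) * t r.1 := by
  simp [mul_apply, pm]

theorem pm_mul (q r : I6) : ((pm c t)ᵀ * M) q r = t q.1 * M (q.1 + c, q.2) r := by
  simp [mul_apply, pm]

theorem mul_bk (q : I6) (i : Fin 3) (a : Fin 2) :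
    (M * bk C) q (i, a) = M q (i, 0) * C i 0 a + M q (i, 1) * C i 1 a := by
  simp [mul_apply, bk, Fintype.sum_prod_type]

theorem bk_mul (i : Fin 3) (a : Fin 2) (r : I6) :
    (bk C * M) (i, a) r = C i a 0 * M (i, 0) r + C i a 1 * M (i, 1) r := by
  simp [mul_apply, bk, Fintype.sum_prod_type]

theorem bk_tr : (bk C)ᵀ = bk fun i => (C i)ᵀ := by
  ext ⟨i, a⟩ ⟨j, b⟩
  by_cases h : i = j
  · subst h
    simp [bk]
  · simp [bk, h, Ne.symm h]

theorem bk_map : (bk C).map σ = bk fun i => (C i).map σ := by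
  ext ⟨i, a⟩ ⟨j, b⟩
  by_cases h : i = j <;> simp [bk, h]

theorem bk_smul (x : Om) : x • bk C = bk fun i => x • C i := by
  ext ⟨i, a⟩ ⟨j, b⟩
  by_cases h : i = j <;> simp [bk, h]

theorem bk_bk : bk C * bk C' = bk fun i => C i * C' i := by
  ext ⟨i, a⟩ ⟨j, b⟩
  rw [bk_mul]
  by_cases h : i = j
  · subst h
    simp [bk, mul_apply]
  · simp [bk, h]

theorem pm_map : (pm c t).map σ = pm c fun i => σ (t i) := by
  ext q r
  by_cases h : q = (r.1 + c, r.2) <;> simp [pm, h]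

theorem pm_bk : pm c t * bk (fun _ => A) = bk (fun _ => A) * pm c t := by
  ext ⟨i, a⟩ ⟨j, b⟩
  rw [mul_bk, mul_pm]
  by_cases h : i = j + c
  · subst h
    fin_cases a <;> simp [pm, bk, mul_comm]
  · simp [pm, bk, h]

theorem pm_bk_pm : (pm c t)ᵀ * bk C * pm c t' = bk fun i => (t i * t' i) • C (i + c) := by
  ext ⟨i, a⟩ ⟨j, b⟩
  rw [mul_pm, pm_mul]
  by_cases h : i = j
  · subst h
    simp [bk]
    ring
  · simp [bk, h]

theorem bk_pm0 : bk C * pm 0 t = bk fun i => t i • C i := by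
  ext ⟨i, a⟩ ⟨j, b⟩
  rw [mul_pm]
  by_cases h : i = j
  · subst h
    simp [bk, mul_comm]
  · simp [bk, h]

theorem j2_congr : A * j2 * Aᵀ = A.det • j2 := by
  ext a b
  fin_cases a <;> fin_cases b <;> simp [j2, mul_apply, det_fin_two] <;> ring

theorem j2_tr : j2ᵀ = -j2 := by
  ext a b
  exact ZDx.j2_alt a b

theorem j2_mp : j2.map σ = j2 := by
  ext a b
  exact ZDx.j2_map σ a b

theorem bk_congr : (bk fun _ => Aᵀ)ᵀ * (bk fun i => e i • j2).map σ * bk (fun _ => Aᵀ) =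
    bk fun i => (A.det * σ (e i)) • j2 := by
  rw [bk_tr, bk_map, bk_bk, bk_bk]
  congr 1
  funext i
  rw [mp_smul, j2_mp, transpose_transpose, Matrix.mul_smul, Matrix.smul_mul, j2_congr, smul_smul,
    mul_comm]

theorem ad_congr (i : Fin 3) :
    ad ((bk fun _ => Aᵀ)ᵀ * M.map σ * bk (fun _ => Aᵀ)) i = A.det * σ (ad M i) := by
  rw [bk_tr]
  simp only [ad, mul_bk, bk_mul, transpose_apply, map_apply, det_fin_two, map_sub]
  ring

theorem ad_pm (x : Om) (i : Fin 3) :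
    ad (x • ((pm c t)ᵀ * M * pm c t')) i = x * (t i * t' i) * ad M (i + c) := by
  simp only [ad, Matrix.smul_apply, mul_pm, pm_mul, smul_eq_mul]
  ring

theorem ad_pm0 (x : Om) (i : Fin 3) : ad (x • (Mᵀ * pm 0 t)) i = -(x * t i * ad M i) := by
  simp only [ad, Matrix.smul_apply, mul_pm, transpose_apply, add_zero, smul_eq_mul]
  ring

open Kronecker in
theorem det_bk1 : (bk fun _ => A).det = A.det ^ 3 := by
  have h : (bk fun _ => A) = (1 : Matrix (Fin 3) (Fin 3) Om) ⊗ₖ A := by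
    ext ⟨i, a⟩ ⟨j, b⟩
    by_cases h : i = j <;> simp [bk, h, one_apply]
  rw [h, det_kronecker]
  simp

open Kronecker in
theorem det_bk2 : (bk fun i => e i • j2).det = (∏ i, e i) ^ 2 := by
  have h : (bk fun i => e i • j2) = diagonal e ⊗ₖ j2 := by
    ext ⟨i, a⟩ ⟨j, b⟩
    by_cases h : i = j <;> simp [bk, h]
  rw [h, det_kronecker]
  simp [j2, det_fin_two]

open Kronecker in
theorem det_pm : (pm c t).det = (∏ i, t i) ^ 2 := by
  have h : pm c t = (of fun i j : Fin 3 => if i = j + c then t j else 0) ⊗ₖ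
      (1 : Matrix (Fin 2) (Fin 2) Om) := by
    ext ⟨i, a⟩ ⟨j, b⟩
    by_cases h : i = j + c <;> by_cases h' : a = b <;> simp [pm, h, h', one_apply]
  rw [h, det_kronecker, det_one, one_pow, mul_one, Fintype.card_fin, det_fin_three,
    Fin.prod_univ_three]
  congr 1
  fin_cases c <;> simp <;> ring

theorem qz_gl6 (B : Matrix (Fin 2) (Fin 2) Om) (P : Matrix I6 I6 Om) (μ : Om) (z : Fin 3 → J) :
    qz (fun i => gl6 σ B P μ (z i)) = P * (qz z).map σ * bk fun _ => Bᵀ := by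
  ext r ⟨i, a⟩
  rw [mul_bk]
  have h1 := congrFun (six_gl6 (σ := σ) (B := B) (P := P) (μ := μ) (z i)).1 r
  have h2 := congrFun (six_gl6 (σ := σ) (B := B) (P := P) (μ := μ) (z i)).2.2 r
  rw [mulVec_add, mulVec_smul, mulVec_smul] at h1 h2
  fin_cases a
  · refine h1.trans ?_
    simp [mul_apply, mulVec, dotProduct, qz, mul_comm]
  · refine h2.trans ?_
    simp [mul_apply, mulVec, dotProduct, qz, mul_comm]

theorem qz_pm (z : Fin 3 → J) : qz (fun i => t i • z (i + c)) = qz z * pm c t := by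
  ext r ⟨i, a⟩
  rw [mul_pm]
  fin_cases a
  · simp [qz, six_lin.1.map_smul, mul_comm]
  · simp [qz, six_lin.2.1.map_smul, mul_comm]

theorem ad_tf {x : Fin 3 → J} (hx : ∀ i, om6 (x i) = 0) (y : Fin 3 → J) (i : Fin 3) :
    ad ((qz x)ᵀ * j6 * qz y) i = tf (x i) (y i) := by
  rw [tf_six, hx, Matrix.mul_zero, Matrix.zero_mul, Matrix.zero_mul, trace_zero, mul_zero, add_zero,
    Matrix.mul_assoc]
  rfl

theorem qz_ne {z : Fin 3 → J} (hz : (qz z).det ≠ 0) (i : Fin 3) : z i ≠ 0 := fun h =>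
  hz (det_eq_zero_of_column_eq_zero (i, 0) fun r => by simp [qz, h, six_lin.1.map_zero])

end Vale.Agent.P011Z.Cl.O2bx

end
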